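import Vale.Agent.P226.Main

open MeasureTheory ProbabilityTheory

theorem Vale.Agent.Results.P226.Propeller.result (d k : ℕ)
    (A : Fin k → Set (EuclideanSpace ℝ (Fin d)))
    (hmeas : ∀ i, NullMeasurableSet (A i) (stdGaussian (EuclideanSpace ℝ (Fin d))))
    (hdisj : ∀ i j, i ≠ j → stdGaussian (EuclideanSpace ℝ (Fin d)) (A i ∩ A j) = 0)
    (hcover : stdGaussian (EuclideanSpace ℝ (Fin d)) (⋃ i, A i)ᶜ = 0) :
    ∑ i, ‖∫ x in A i, x ∂(stdGaussian (EuclideanSpace ℝ (Fin d)))‖ ^ 2 ≤ 9 / (8 * Real.pi) :=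
  Vale.Agent.P226.propeller ⟨hmeas, fun i j h => hdisj i j h, hcover⟩
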