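import Vale.Agent.P226.Value

open MeasureTheory

namespace Vale.Agent.Results.P226.Value

/-- the standard Gaussian measure on `ℝ^d`, with density `(2π)^(-d/2) exp (-|x|²/2)` -/
noncomputable def gamma (d : ℕ) : Measure (EuclideanSpace ℝ (Fin d)) :=
  volume.withDensity fun x =>
    ENNReal.ofReal ((2 * Real.pi) ^ (-(d : ℝ) / 2) * Real.exp (-‖x‖ ^ 2 / 2))

/-- measurable partitions of `ℝ^d` into `k` cells, up to null sets -/
def IsPartition (d k : ℕ) (A : Fin k → Set (EuclideanSpace ℝ (Fin d))) : Prop :=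
  (∀ i, NullMeasurableSet (A i) (gamma d)) ∧ (∀ i j, i ≠ j → gamma d (A i ∩ A j) = 0) ∧
    gamma d (⋃ i, A i)ᶜ = 0

/-- the sum of the squared norms of the first moments of the cells -/
noncomputable def energy (d k : ℕ) (A : Fin k → Set (EuclideanSpace ℝ (Fin d))) : ℝ :=
  ∑ i, ‖∫ x in A i, x ∂(gamma d)‖ ^ 2

theorem result :
    (∀ (d k : ℕ) (A : Fin k → Set (EuclideanSpace ℝ (Fin d))),
      IsPartition d k A → energy d k A ≤ 9 / (8 * Real.pi)) ∧
    ∀ d k : ℕ, 2 ≤ d → 3 ≤ k →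
      IsGreatest {t : ℝ | ∃ A, IsPartition d k A ∧ energy d k A = t} (9 / (8 * Real.pi)) := by
  have hg : ∀ d, gamma d = ProbabilityTheory.stdGaussian (EuclideanSpace ℝ (Fin d)) :=
    Vale.Agent.P226.withDensity_eq_std
  have h1 : ∀ (d k : ℕ) (A : Fin k → Set (EuclideanSpace ℝ (Fin d))),
      IsPartition d k A → energy d k A ≤ 9 / (8 * Real.pi) := fun d k A h => by
    unfold IsPartition at h
    unfold energy
    rw [hg] at h ⊢
    exact Vale.Agent.P226.propeller ⟨h.1, fun i j hij => h.2.1 i j hij, h.2.2⟩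
  refine ⟨h1, fun d k hd hk => ⟨?_, fun t ⟨A, hA, ht⟩ => ht ▸ h1 d k A hA⟩⟩
  obtain ⟨B, hB, h2⟩ := Vale.Agent.P226.exists_extremal hd hk
  refine ⟨B, ?_, ?_⟩
  · unfold IsPartition
    rw [hg]
    exact ⟨hB.meas, fun i j hij => hB.disj hij, hB.cover⟩
  · unfold energy
    rw [hg]
    exact h2

end Vale.Agent.Results.P226.Value
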